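import Vale.Agent.H40.KTV.GDefs

/-!
Square completion for the pair fibres of two disjoint vertex pairs where the block sum is
not two (sub-lemma of row R1 of the simple-graph split of P335).
-/

namespace Vale.Agent.H18

open Finset SimpleGraph
open scoped Classical
open Vale.Agent.H40.KTV

set_option linter.unusedSectionVars false

variable {V : Type} [Fintype V]

/-- indicator of a proposition -/
noncomputable def ind (p : Prop) : ℕ := if p then 1 else 0

theorem ind_congr {p q : Prop} (h : p ↔ q) : ind p = ind q := by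
  unfold ind
  by_cases hp : p
  · rw [if_pos hp, if_pos (h.1 hp)]
  · rw [if_neg hp, if_neg (fun hq => hp (h.2 hq))]

/-- the degree as a sum of indicators -/
theorem deg_sum (G : SimpleGraph V) (a : V) : G.degree a = ∑ b, ind (G.Adj a b) := by
  unfold ind
  rw [Finset.sum_boole, ← SimpleGraph.card_neighborFinset_eq_degree]
  simp only [Nat.cast_id]
  congr 1
  ext b
  simp

theorem sum_split2 (g : V → ℕ) (i j : V) (hij : i ≠ j) :
    ∑ k, g k = g i + g j + ∑ k, (if k ≠ i ∧ k ≠ j then g k else 0) := by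
  have h1 : ∀ k, g k = (if k = i then g k else 0) + (if k = j then g k else 0)
      + (if k ≠ i ∧ k ≠ j then g k else 0) := by
    intro k
    by_cases h : k = i
    · subst h
      simp [hij]
    · by_cases h' : k = j
      · subst h'
        simp [h]
      · simp [h, h']
  calc ∑ k, g k = ∑ k, ((if k = i then g k else 0) + (if k = j then g k else 0)
      + (if k ≠ i ∧ k ≠ j then g k else 0)) := Finset.sum_congr rfl (fun k _ => h1 k)
    _ = g i + g j + ∑ k, (if k ≠ i ∧ k ≠ j then g k else 0) := by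
      rw [Finset.sum_add_distrib, Finset.sum_add_distrib, Finset.sum_ite_eq', Finset.sum_ite_eq']
      simp

/-- the degree split at two vertices -/
theorem deg_split (G : SimpleGraph V) (a i j : V) (hij : i ≠ j) :
    G.degree a = ind (G.Adj a i) + ind (G.Adj a j)
      + ∑ b, (if b ≠ i ∧ b ≠ j then ind (G.Adj a b) else 0) := by
  rw [deg_sum, sum_split2 (fun b => ind (G.Adj a b)) i j hij]

theorem rest_congr (G G' : SimpleGraph V) (a i j : V)
    (hag : ∀ b, b ≠ i → b ≠ j → (G.Adj a b ↔ G'.Adj a b)) :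
    ∑ b, (if b ≠ i ∧ b ≠ j then ind (G.Adj a b) else 0)
      = ∑ b, (if b ≠ i ∧ b ≠ j then ind (G'.Adj a b) else 0) := by
  refine Finset.sum_congr rfl (fun b _ => ?_)
  by_cases h : b ≠ i ∧ b ≠ j
  · rw [if_pos h, if_pos h, ind_congr (hag b h.1 h.2)]
  · rw [if_neg h, if_neg h]

/-- equal degrees and agreement off two neighbours give equal two-point sums -/
theorem two_pt (G G' : SimpleGraph V) (a i j : V) (hij : i ≠ j)
    (hd : G.degree a = G'.degree a)
    (hag : ∀ b, b ≠ i → b ≠ j → (G.Adj a b ↔ G'.Adj a b)) :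
    ind (G.Adj a i) + ind (G.Adj a j) = ind (G'.Adj a i) + ind (G'.Adj a j) := by
  have h1 := deg_split G a i j hij
  have h2 := deg_split G' a i j hij
  have h3 := rest_congr G G' a i j hag
  omega

/-- equal two-point sums and agreement off two neighbours give equal degrees -/
theorem deg_of_two_pt (G G' : SimpleGraph V) (a i j : V) (hij : i ≠ j)
    (hag : ∀ b, b ≠ i → b ≠ j → (G.Adj a b ↔ G'.Adj a b))
    (h2 : ind (G.Adj a i) + ind (G.Adj a j) = ind (G'.Adj a i) + ind (G'.Adj a j)) :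
    G.degree a = G'.degree a := by
  have h1 := deg_split G a i j hij
  have h2' := deg_split G' a i j hij
  have h3 := rest_congr G G' a i j hag
  omega

/-- agreement of two graphs in one pair fibre off the pair -/
theorem rp_adj {u v : V} {G H : SimpleGraph V} (h : RP u v G H) {a b : V}
    (ha1 : a ≠ u) (ha2 : a ≠ v) (hb1 : b ≠ u) (hb2 : b ≠ v) : G.Adj a b ↔ H.Adj a b := by
  have := h.2 s(a, b) (by
    simp only [EP, Set.mem_ofPred_eq, Sym2.mem_iff]
    rintro (h1 | h1) <;> rcases h1 with h1 | h1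
    · exact ha1 h1.symm
    · exact hb1 h1.symm
    · exact ha2 h1.symm
    · exact hb2 h1.symm)
  simpa using this

theorem rp_sd {u v : V} {G H : SimpleGraph V} (h : RP u v G H) (a : V) :
    G.degree a = H.degree a := h.1 a

/-- how to prove membership in a pair fibre -/
theorem rp_of {u v : V} {G H : SimpleGraph V} (hd : ∀ a, G.degree a = H.degree a)
    (hag : ∀ a b, a ≠ u → a ≠ v → b ≠ u → b ≠ v → (G.Adj a b ↔ H.Adj a b)) : RP u v G H := by
  refine ⟨hd, ?_⟩
  intro e
  induction e using Sym2.ind with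
  | _ a b =>
    intro he
    simp only [EP, Set.mem_ofPred_eq, Sym2.mem_iff, not_or] at he
    simp only [SimpleGraph.mem_edgeSet]
    exact hag a b (fun h => he.1.1 h.symm) (fun h => he.2.1 h.symm) (fun h => he.1.2 h.symm)
      (fun h => he.2.2 h.symm)

/-- block sum of the block `{u, v} x {w, z}` -/
noncomputable def bsum (u v w z : V) (G : SimpleGraph V) : ℕ :=
  ind (G.Adj u w) + ind (G.Adj u z) + ind (G.Adj v w) + ind (G.Adj v z)

/-- column sums of the block are invariant in the pair fibre of the rows -/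
theorem col_rp {u v : V} {G H : SimpleGraph V} (h : RP u v G H) (huv : u ≠ v) (c : V)
    (hc1 : c ≠ u) (hc2 : c ≠ v) :
    ind (G.Adj u c) + ind (G.Adj v c) = ind (H.Adj u c) + ind (H.Adj v c) := by
  have := two_pt G H c u v huv (rp_sd h c) (fun _ hb1 hb2 => rp_adj h hc1 hc2 hb1 hb2)
  rw [ind_congr (G.adj_comm c u), ind_congr (G.adj_comm c v), ind_congr (H.adj_comm c u),
    ind_congr (H.adj_comm c v)] at this
  exact this

/-- row sums of the block are invariant in the pair fibre of the columns -/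
theorem row_rp {w z : V} {G H : SimpleGraph V} (h : RP w z G H) (hwz : w ≠ z) (r : V)
    (hr1 : r ≠ w) (hr2 : r ≠ z) :
    ind (G.Adj r w) + ind (G.Adj r z) = ind (H.Adj r w) + ind (H.Adj r z) :=
  two_pt G H r w z hwz (rp_sd h r) (fun _ hb1 hb2 => rp_adj h hr1 hr2 hb1 hb2)

theorem bsum_rp {u v w z : V} (hd : Dist4 u v w z) {G H : SimpleGraph V} (h : RP u v G H) :
    bsum u v w z G = bsum u v w z H := by
  obtain ⟨huv, huw, huz, hvw, hvz, hwz⟩ := hd
  have h1 := col_rp h huv w (Ne.symm huw) (Ne.symm hvw)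
  have h2 := col_rp h huv z (Ne.symm huz) (Ne.symm hvz)
  unfold bsum
  omega

theorem bsum_rq {u v w z : V} (hd : Dist4 u v w z) {G H : SimpleGraph V} (h : RP w z G H) :
    bsum u v w z G = bsum u v w z H := by
  obtain ⟨huv, huw, huz, hvw, hvz, hwz⟩ := hd
  have h1 := row_rp h hwz u huw huz
  have h2 := row_rp h hwz v hvw hvz
  unfold bsum
  omega

/-- Propositional core: a 2 x 2 pattern with prescribed row sums (from `a`) and column sums
(from `c`) when the common total is not two. -/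
theorem blk_lemma (a1 a2 a3 a4 c1 c2 c3 c4 : Prop)
    (hs : ind a1 + ind a2 + ind a3 + ind a4 = ind c1 + ind c2 + ind c3 + ind c4)
    (hs2 : ind a1 + ind a2 + ind a3 + ind a4 ≠ 2) :
    (ind (if ind a1 + ind a2 + ind a3 + ind a4 ≤ 1 then (a1 ∨ a2) ∧ (c1 ∨ c3)
          else (a1 ∧ a2) ∨ (c1 ∧ c3))
      + ind (if ind a1 + ind a2 + ind a3 + ind a4 ≤ 1 then (a1 ∨ a2) ∧ (c2 ∨ c4)
          else (a1 ∧ a2) ∨ (c2 ∧ c4)) = ind a1 + ind a2) ∧
    (ind (if ind a1 + ind a2 + ind a3 + ind a4 ≤ 1 then (a3 ∨ a4) ∧ (c1 ∨ c3)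
          else (a3 ∧ a4) ∨ (c1 ∧ c3))
      + ind (if ind a1 + ind a2 + ind a3 + ind a4 ≤ 1 then (a3 ∨ a4) ∧ (c2 ∨ c4)
          else (a3 ∧ a4) ∨ (c2 ∧ c4)) = ind a3 + ind a4) ∧
    (ind (if ind a1 + ind a2 + ind a3 + ind a4 ≤ 1 then (a1 ∨ a2) ∧ (c1 ∨ c3)
          else (a1 ∧ a2) ∨ (c1 ∧ c3))
      + ind (if ind a1 + ind a2 + ind a3 + ind a4 ≤ 1 then (a3 ∨ a4) ∧ (c1 ∨ c3)
          else (a3 ∧ a4) ∨ (c1 ∧ c3)) = ind c1 + ind c3) ∧
    (ind (if ind a1 + ind a2 + ind a3 + ind a4 ≤ 1 then (a1 ∨ a2) ∧ (c2 ∨ c4)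
          else (a1 ∧ a2) ∨ (c2 ∧ c4))
      + ind (if ind a1 + ind a2 + ind a3 + ind a4 ≤ 1 then (a3 ∨ a4) ∧ (c2 ∨ c4)
          else (a3 ∧ a4) ∨ (c2 ∧ c4)) = ind c2 + ind c4) := by
  unfold ind at hs hs2 ⊢
  by_cases h1 : a1 <;> by_cases h2 : a2 <;> by_cases h3 : a3 <;> by_cases h4 : a4 <;>
    by_cases g1 : c1 <;> by_cases g2 : c2 <;> by_cases g3 : c3 <;> by_cases g4 : c4 <;>
    simp [h1, h2, h3, h4, g1, g2, g3, g4] at hs hs2 ⊢

/-- the block of the completing graph -/
def blk (u v w z : V) (G1 G3 : SimpleGraph V) (r c : V) : Prop :=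
  if bsum u v w z G1 ≤ 1 then (G1.Adj r w ∨ G1.Adj r z) ∧ (G3.Adj u c ∨ G3.Adj v c)
  else (G1.Adj r w ∧ G1.Adj r z) ∨ (G3.Adj u c ∧ G3.Adj v c)

/-- The completing graph: `G1` off the pairs meeting `{w, z}`, `G3` on the pairs meeting
`{w, z}` but not `{u, v}`, and the pattern `blk` on the block. -/
def comp (u v w z : V) (G1 G3 : SimpleGraph V) : SimpleGraph V :=
  SimpleGraph.fromRel (fun a b =>
    ((a ≠ w ∧ a ≠ z ∧ b ≠ w ∧ b ≠ z) ∧ G1.Adj a b) ∨
    ((a ≠ u ∧ a ≠ v ∧ b ≠ u ∧ b ≠ v) ∧ ¬ (a ≠ w ∧ a ≠ z ∧ b ≠ w ∧ b ≠ z) ∧ G3.Adj a b) ∨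
    ((a = u ∨ a = v) ∧ (b = w ∨ b = z) ∧ blk u v w z G1 G3 a b))

theorem comp_adj_off_q {u v w z : V} (G1 G3 : SimpleGraph V) {a b : V}
    (ha1 : a ≠ w) (ha2 : a ≠ z) (hb1 : b ≠ w) (hb2 : b ≠ z) :
    (comp u v w z G1 G3).Adj a b ↔ G1.Adj a b := by
  unfold comp
  rw [SimpleGraph.fromRel_adj]
  constructor
  · rintro ⟨-, h | h⟩
    · rcases h with h | h | h
      · exact h.2
      · exact absurd ⟨ha1, ha2, hb1, hb2⟩ h.2.1
      · rcases h.2.1 with h' | h'
        · exact absurd h' hb1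
        · exact absurd h' hb2
    · rcases h with h | h | h
      · exact h.2.symm
      · exact absurd ⟨hb1, hb2, ha1, ha2⟩ h.2.1
      · rcases h.2.1 with h' | h'
        · exact absurd h' ha1
        · exact absurd h' ha2
  · intro h
    exact ⟨G1.ne_of_adj h, Or.inl (Or.inl ⟨⟨ha1, ha2, hb1, hb2⟩, h⟩)⟩

theorem comp_adj_off_p {u v w z : V} (G1 G3 : SimpleGraph V) {a b : V}
    (ha1 : a ≠ u) (ha2 : a ≠ v) (hb1 : b ≠ u) (hb2 : b ≠ v)
    (hq : ¬ (a ≠ w ∧ a ≠ z ∧ b ≠ w ∧ b ≠ z)) :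
    (comp u v w z G1 G3).Adj a b ↔ G3.Adj a b := by
  unfold comp
  rw [SimpleGraph.fromRel_adj]
  constructor
  · rintro ⟨-, h | h⟩
    · rcases h with h | h | h
      · exact absurd h.1 hq
      · exact h.2.2
      · rcases h.1 with h' | h'
        · exact absurd h' ha1
        · exact absurd h' ha2
    · rcases h with h | h | h
      · exact absurd ⟨h.1.2.2.1, h.1.2.2.2, h.1.1, h.1.2.1⟩ hq
      · exact h.2.2.symm
      · rcases h.1 with h' | h'
        · exact absurd h' hb1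
        · exact absurd h' hb2
  · intro h
    exact ⟨G3.ne_of_adj h, Or.inl (Or.inr (Or.inl ⟨⟨ha1, ha2, hb1, hb2⟩, hq, h⟩))⟩

theorem comp_adj_blk {u v w z : V} (hd : Dist4 u v w z) (G1 G3 : SimpleGraph V) {r c : V}
    (hr : r = u ∨ r = v) (hc : c = w ∨ c = z) :
    (comp u v w z G1 G3).Adj r c ↔ blk u v w z G1 G3 r c := by
  obtain ⟨huv, huw, huz, hvw, hvz, hwz⟩ := hd
  have hrw : r ≠ w := by rcases hr with h | h <;> rw [h] <;> assumption
  have hrz : r ≠ z := by rcases hr with h | h <;> rw [h] <;> assumption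
  have hcu : c ≠ u := by rcases hc with h | h <;> rw [h] <;> exact Ne.symm (by assumption)
  have hcv : c ≠ v := by rcases hc with h | h <;> rw [h] <;> exact Ne.symm (by assumption)
  have hrc : r ≠ c := by
    rcases hc with h | h <;> rw [h] <;> assumption
  unfold comp
  rw [SimpleGraph.fromRel_adj]
  constructor
  · rintro ⟨-, h | h⟩
    · rcases h with h | h | h
      · rcases hc with h' | h'
        · exact absurd h' h.1.2.2.1
        · exact absurd h' h.1.2.2.2
      · rcases hr with h' | h'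
        · exact absurd h' h.1.1
        · exact absurd h' h.1.2.1
      · exact h.2.2
    · rcases h with h | h | h
      · rcases hc with h' | h'
        · exact absurd h' h.1.1
        · exact absurd h' h.1.2.1
      · rcases hr with h' | h'
        · exact absurd h' h.1.2.2.1
        · exact absurd h' h.1.2.2.2
      · rcases h.1 with h' | h'
        · exact absurd h' hcu
        · exact absurd h' hcv
  · intro h
    exact ⟨hrc, Or.inl (Or.inr (Or.inr ⟨hr, hc, h⟩))⟩

/-- **Square completion where the block sum is not two.** If `G1`, `G2` lie in one pair fibre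
of `{u, v}`, `G2`, `G3` in one pair fibre of `{w, z}`, and the block `{u, v} x {w, z}` of `G1`
does not have exactly two edges, there is `H` in the `{w, z}`-fibre of `G1` and in the
`{u, v}`-fibre of `G3`. -/
theorem sq_odd (u v w z : V) (hd : Dist4 u v w z) (G1 G2 G3 : SimpleGraph V)
    (hs : bsum u v w z G1 ≠ 2) (h12 : RP u v G1 G2) (h23 : RP w z G2 G3) :
    ∃ H, RP w z G1 H ∧ RP u v H G3 := by
  have hd' := hd
  obtain ⟨huv, huw, huz, hvw, hvz, hwz⟩ := hd'
  have hb13 : bsum u v w z G1 = bsum u v w z G3 := (bsum_rp hd h12).trans (bsum_rq hd h23)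
  have hB := blk_lemma (G1.Adj u w) (G1.Adj u z) (G1.Adj v w) (G1.Adj v z)
    (G3.Adj u w) (G3.Adj u z) (G3.Adj v w) (G3.Adj v z) hb13 hs
  obtain ⟨hB1, hB2, hB3, hB4⟩ := hB
  set H := comp u v w z G1 G3 with hH
  have euw : H.Adj u w ↔ blk u v w z G1 G3 u w := comp_adj_blk hd G1 G3 (Or.inl rfl) (Or.inl rfl)
  have euz : H.Adj u z ↔ blk u v w z G1 G3 u z := comp_adj_blk hd G1 G3 (Or.inl rfl) (Or.inr rfl)
  have evw : H.Adj v w ↔ blk u v w z G1 G3 v w := comp_adj_blk hd G1 G3 (Or.inr rfl) (Or.inl rfl)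
  have evz : H.Adj v z ↔ blk u v w z G1 G3 v z := comp_adj_blk hd G1 G3 (Or.inr rfl) (Or.inr rfl)
  have hrow_u : ind (H.Adj u w) + ind (H.Adj u z) = ind (G1.Adj u w) + ind (G1.Adj u z) := by
    rw [ind_congr euw, ind_congr euz]
    exact hB1
  have hrow_v : ind (H.Adj v w) + ind (H.Adj v z) = ind (G1.Adj v w) + ind (G1.Adj v z) := by
    rw [ind_congr evw, ind_congr evz]
    exact hB2
  have hcol_w : ind (H.Adj w u) + ind (H.Adj w v) = ind (G3.Adj w u) + ind (G3.Adj w v) := by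
    rw [ind_congr (H.adj_comm w u), ind_congr (H.adj_comm w v), ind_congr (G3.adj_comm w u),
      ind_congr (G3.adj_comm w v), ind_congr euw, ind_congr evw]
    exact hB3
  have hcol_z : ind (H.Adj z u) + ind (H.Adj z v) = ind (G3.Adj z u) + ind (G3.Adj z v) := by
    rw [ind_congr (H.adj_comm z u), ind_congr (H.adj_comm z v), ind_congr (G3.adj_comm z u),
      ind_congr (G3.adj_comm z v), ind_congr euz, ind_congr evz]
    exact hB4
  have hdeg : ∀ a, H.degree a = G1.degree a := by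
    intro a
    by_cases hau : a = u
    · rw [hau]
      exact deg_of_two_pt H G1 u w z hwz
        (fun b hb1 hb2 => comp_adj_off_q G1 G3 huw huz hb1 hb2) hrow_u
    by_cases hav : a = v
    · rw [hav]
      exact deg_of_two_pt H G1 v w z hwz
        (fun b hb1 hb2 => comp_adj_off_q G1 G3 hvw hvz hb1 hb2) hrow_v
    by_cases haw : a = w
    · rw [haw]
      have e1 : H.degree w = G3.degree w :=
        deg_of_two_pt H G3 w u v huv
          (fun b hb1 hb2 => comp_adj_off_p G1 G3 (Ne.symm huw) (Ne.symm hvw) hb1 hb2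
            (fun h => h.1 rfl)) hcol_w
      rw [e1, ← rp_sd h23 w, ← rp_sd h12 w]
    by_cases haz : a = z
    · rw [haz]
      have e1 : H.degree z = G3.degree z :=
        deg_of_two_pt H G3 z u v huv
          (fun b hb1 hb2 => comp_adj_off_p G1 G3 (Ne.symm huz) (Ne.symm hvz) hb1 hb2
            (fun h => h.2.1 rfl)) hcol_z
      rw [e1, ← rp_sd h23 z, ← rp_sd h12 z]
    · refine deg_of_two_pt H G1 a w z hwz
        (fun b hb1 hb2 => comp_adj_off_q G1 G3 haw haz hb1 hb2) ?_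
      have e1 : H.Adj a w ↔ G3.Adj a w :=
        comp_adj_off_p G1 G3 hau hav (Ne.symm huw) (Ne.symm hvw) (fun h => h.2.2.1 rfl)
      have e2 : H.Adj a z ↔ G3.Adj a z :=
        comp_adj_off_p G1 G3 hau hav (Ne.symm huz) (Ne.symm hvz) (fun h => h.2.2.2 rfl)
      have e3 : G1.Adj a w ↔ G2.Adj a w := rp_adj h12 hau hav (Ne.symm huw) (Ne.symm hvw)
      have e4 : G1.Adj a z ↔ G2.Adj a z := rp_adj h12 hau hav (Ne.symm huz) (Ne.symm hvz)
      rw [ind_congr e1, ind_congr e2, ind_congr e3, ind_congr e4]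
      exact (row_rp h23 hwz a haw haz).symm
  refine ⟨H, ?_, ?_⟩
  · exact rp_of (fun a => (hdeg a).symm)
      (fun a b ha1 ha2 hb1 hb2 => (comp_adj_off_q G1 G3 ha1 ha2 hb1 hb2).symm)
  · refine rp_of (fun a => (hdeg a).trans ((rp_sd h12 a).trans (rp_sd h23 a))) ?_
    intro a b ha1 ha2 hb1 hb2
    by_cases hq : a ≠ w ∧ a ≠ z ∧ b ≠ w ∧ b ≠ z
    · rw [comp_adj_off_q G1 G3 hq.1 hq.2.1 hq.2.2.1 hq.2.2.2, rp_adj h12 ha1 ha2 hb1 hb2,
        rp_adj h23 hq.1 hq.2.1 hq.2.2.1 hq.2.2.2]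
    · exact comp_adj_off_p G1 G3 ha1 ha2 hb1 hb2 hq

end Vale.Agent.H18
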