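import Vale.Agent.H40.KTV.GBasic
import Vale.Agent.H18.KTV.SqOdd

/-!
Row R1c of the simple-graph split of P335: square completion of the pair fibres of two
disjoint vertex pairs on the non-critical part (block sum not two), in the vocabulary of
`Vale.Agent.H40.KTV.GBasic`.
-/

namespace Vale.Agent.H18

open Finset SimpleGraph
open scoped Classical
open Vale.Agent.H40.KTV

set_option linter.unusedSectionVars false

variable {V : Type} [Fintype V]

theorem bsum_eq_sig (u v w z : V) (G : SimpleGraph V) : bsum u v w z G = sig u v w z G := rfl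

theorem sq_noncrit (u v w z : V) (h : Dist4 u v w z) (G₁ G G₂ : SimpleGraph V)
    (hs : sig u v w z G ≠ 2) (h1 : RP u v G₁ G) (h2 : RP w z G G₂) :
    ∃ H, RP w z G₁ H ∧ RP u v H G₂ := by
  have hs' : bsum u v w z G₁ ≠ 2 := by
    rw [bsum_rp h h1, bsum_eq_sig]
    exact hs
  exact sq_odd u v w z h G₁ G G₂ hs' h1 h2

/-- the block sum is invariant in the pair fibre of the rows -/
theorem sig_rp {u v w z : V} (h : Dist4 u v w z) {G H : SimpleGraph V} (hr : RP u v G H) :
    sig u v w z G = sig u v w z H := by
  rw [← bsum_eq_sig, ← bsum_eq_sig]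
  exact bsum_rp h hr

/-- the block sum is invariant in the pair fibre of the columns -/
theorem sig_rq {u v w z : V} (h : Dist4 u v w z) {G H : SimpleGraph V} (hr : RP w z G H) :
    sig u v w z G = sig u v w z H := by
  rw [← bsum_eq_sig, ← bsum_eq_sig]
  exact bsum_rq h hr

end Vale.Agent.H18
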